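import Mathlib

/-!
# Row 255 (helper32): exactness from a well founded filtration of the bases

Every basis element has a level in `L`, levels have a height in a well order `O`; the maps keep the level
or lower the height.  If the graded pieces are exact, so is the complex.
-/

set_option autoImplicit false
open Finsupp

noncomputable section

namespace Crest.Agent.N255.Fl

variable {R X Y Z L O : Type*} [CommRing R] [LinearOrder O]

/-- supported on one level -/
def On (l : X → L) (w : L) (a : X →₀ R) : Prop := ∀ x, a x ≠ 0 → l x = w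

/-- `f` keeps the level or lowers the height -/
def Low (ht : L → O) (lX : X → L) (lY : Y → L) (f : (X →₀ R) →ₗ[R] (Y →₀ R)) : Prop :=
  ∀ x y, f (single x 1) y ≠ 0 → lY y = lX x ∨ ht (lY y) < ht (lX x)

theorem exists_of_ne (f : (X →₀ R) →ₗ[R] (Y →₀ R)) {a : X →₀ R} {y : Y} (h : f a y ≠ 0) :
    ∃ x, a x ≠ 0 ∧ f (single x 1) y ≠ 0 := by
  by_contra hc
  push Not at hc
  apply h
  conv_lhs => rw [← a.sum_single]
  rw [Finsupp.sum, map_sum, Finsupp.finsetSum_apply]
  refine Finset.sum_eq_zero fun x hx => ?_
  rw [← smul_single_one, map_smul, Finsupp.smul_apply, hc x (mem_support_iff.1 hx), smul_zero]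

variable {ht : L → O} {lX : X → L} {lY : Y → L} {lZ : Z → L}
  {f : (X →₀ R) →ₗ[R] (Y →₀ R)} {g : (Y →₀ R) →ₗ[R] (Z →₀ R)}

theorem Low.apply (hf : Low ht lX lY f) {a : X →₀ R} {y : Y} (h : f a y ≠ 0) :
    ∃ x, a x ≠ 0 ∧ (lY y = lX x ∨ ht (lY y) < ht (lX x)) :=
  let ⟨x, h1, h2⟩ := exists_of_ne f h; ⟨x, h1, hf x y h2⟩

/-- the reduction: `Q` is any property of chains which is stable under `- f a` and under which the top
part can be hit -/
theorem mem_range_of_gr [WellFoundedLT O] (hf : Low ht lX lY f) (Q : (Y →₀ R) → Prop)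
    (hQ : ∀ b a, Q b → Q (b - f a))
    (gr : ∀ w b, Q b → (∀ y, b y ≠ 0 → ht (lY y) ≤ ht w) →
      ∃ a, On lX w a ∧ ∀ y, lY y = w → f a y = b y) (b : Y →₀ R) (hb : Q b) : ∃ a, f a = b := by
  classical
  have key : ∀ o : O, ∀ n : ℕ, ∀ b : Y →₀ R, Q b → (∀ y, b y ≠ 0 → ht (lY y) ≤ o) →
      ((b.support.image lY).filter (ht · = o)).card ≤ n → ∃ a, f a = b := by
    intro o
    induction o using WellFoundedLT.induction with
    | ind o iho =>
    intro n
    induction n with
    | zero =>
      intro b hb h1 h2
      rcases b.support.eq_empty_or_nonempty with e | hne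
      · exact ⟨0, by rw [support_eq_empty.1 e, map_zero]⟩
      obtain ⟨y0, hy0, hmax⟩ := b.support.exists_max_image (fun y => ht (lY y)) hne
      refine iho (ht (lY y0)) (lt_of_le_of_ne (h1 _ (mem_support_iff.1 hy0)) fun e => ?_) _ b hb
        (fun y hy => hmax y (mem_support_iff.2 hy)) le_rfl
      have : lY y0 ∈ (b.support.image lY).filter (ht · = o) :=
        Finset.mem_filter.2 ⟨Finset.mem_image_of_mem _ hy0, e⟩
      rw [Finset.card_eq_zero.1 (Nat.le_zero.1 h2)] at this
      exact Finset.notMem_empty _ this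
    | succ n ihn =>
      intro b hb h1 h2
      rcases ((b.support.image lY).filter (ht · = o)).eq_empty_or_nonempty with e | ⟨w, hw⟩
      · exact ihn b hb h1 (by rw [e]; exact Nat.zero_le _)
      have hwo : ht w = o := (Finset.mem_filter.1 hw).2
      obtain ⟨a, ha, hab⟩ := gr w b hb (hwo ▸ h1)
      have hlow : ∀ y, f a y ≠ 0 → lY y = w ∨ ht (lY y) < o := fun y hy => by
        obtain ⟨x, hx, h⟩ := hf.apply hy
        rwa [ha x hx, hwo] at h
      obtain ⟨a', ha'⟩ := ihn (b - f a) (hQ b a hb) (fun y hy => by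
        by_cases e : b y = 0
        · rcases hlow y (fun e' => hy (by rw [Finsupp.sub_apply, e, e', sub_zero])) with h | h
          · rw [h, hwo]
          · exact h.le
        · exact h1 y e) (by
        refine Nat.le_of_lt_succ (lt_of_lt_of_le (Finset.card_lt_card ⟨fun u hu => ?_, fun hs => ?_⟩) h2)
        · obtain ⟨hu1, hu2⟩ := Finset.mem_filter.1 hu
          obtain ⟨y, hy, rfl⟩ := Finset.mem_image.1 hu1
          by_cases e : b y = 0
          · rcases hlow y (fun e' => mem_support_iff.1 hy
              (by rw [Finsupp.sub_apply, e, e', sub_zero])) with h | h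
            · rw [h]; exact hw
            · exact absurd hu2 h.ne
          · exact Finset.mem_filter.2 ⟨Finset.mem_image_of_mem _ (mem_support_iff.2 e), hu2⟩
        · obtain ⟨y, hy, e⟩ := Finset.mem_image.1 (Finset.mem_filter.1 (hs hw)).1
          exact mem_support_iff.1 hy (by rw [Finsupp.sub_apply, hab y e, sub_self]))
      exact ⟨a + a', by rw [map_add, ha', add_sub_cancel]⟩
  rcases b.support.eq_empty_or_nonempty with e | hne
  · exact ⟨0, by rw [support_eq_empty.1 e, map_zero]⟩
  obtain ⟨y0, -, hmax⟩ := b.support.exists_max_image (fun y => ht (lY y)) hne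
  exact key _ _ b hb (fun y hy => hmax y (mem_support_iff.2 hy)) le_rfl

open Classical in
/-- the part of level `w` -/
def part (l : X → L) (w : L) (a : X →₀ R) : X →₀ R := a.filter (l · = w)

theorem part_of_eq {w : L} (a : X →₀ R) {x : X} (h : lX x = w) : part lX w a x = a x := by
  simp [part, h]

theorem part_of_ne {w : L} (a : X →₀ R) {x : X} (h : lX x ≠ w) : part lX w a x = 0 := by
  simp [part, h]

theorem on_part (w : L) (a : X →₀ R) : On lX w (part lX w a) := fun _ hx =>
  by_contra fun e => hx (part_of_ne a e)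

/-- on the top level only the top part contributes -/
theorem Low.part_top (hg : Low ht lY lZ g) {w : L} {b : Y →₀ R}
    (hb : ∀ y, b y ≠ 0 → ht (lY y) ≤ ht w) {z : Z} (hz : lZ z = w) : g (part lY w b) z = g b z := by
  have : g (b - part lY w b) z = 0 := by
    by_contra h
    obtain ⟨y, hy, h'⟩ := hg.apply h
    have hne : lY y ≠ w := fun e => hy (by rw [Finsupp.sub_apply, part_of_eq b e, sub_self])
    rw [Finsupp.sub_apply, part_of_ne b hne, sub_zero] at hy
    rcases h' with h' | h'
    · exact hne (h' ▸ hz)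
    · exact absurd (hb y hy) (not_le.2 (hz ▸ h'))
  rw [map_sub, Finsupp.sub_apply, sub_eq_zero] at this
  exact this.symm






end Crest.Agent.N255.Fl

end
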